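import Crest.Agent.X212.Nv5.Stm
import Crest.Agent.X212.Lab56.Exi
import Crest.Agent.X212.Rfl19.Th

-- ▼ part X212/Nvg56/Gl
section

/-!
# X212 / Nvg56, part Gl (helper56): classes restrict to the pieces of a gluing and glue along a neck

* `pull_back`, `cls_glue`, `cyl_surj`, `ext_end` : calculus of classes on open sets;
* `glStmt : Nv5.GlStmt`.
-/

set_option autoImplicit false
set_option linter.unusedSectionVars false

open Set Filter Topology Function
open scoped ContDiff Manifold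
open Crest.Agent.X212.Bor5.T Crest.Agent.X212.Lab56 Crest.Agent.X212.Rfl19
open Crest.Agent.X212.Cyl58 (TP TIso)
open Crest.Agent.X212.Rod53 (E4)

noncomputable section

namespace Crest.Agent.X212.Nvg56

section gen

variable {E : Type} [NormedAddCommGroup E] [NormedSpace ℝ E] [FiniteDimensional ℝ E]
  {H : Type} [TopologicalSpace H] {I : ModelWithCorners ℝ E H}
  {M : Type} [TopologicalSpace M] [ChartedSpace H M] [IsManifold I ∞ M]
  {E' : Type} [NormedAddCommGroup E'] [NormedSpace ℝ E'] [FiniteDimensional ℝ E']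
  {H' : Type} [TopologicalSpace H'] {I' : ModelWithCorners ℝ E' H'}
  {N : Type} [TopologicalSpace N] [ChartedSpace H' N] [IsManifold I' ∞ N]
  {O U V : Set M} {W : Set N} {f : N → M} {j : M → N}

/-- pulling back along a map and a section of it -/
theorem pull_back (c : Cls I O) (hf : ∀ y ∈ W, IsLocalDiffeomorphAt I' I ∞ f y) (hm : MapsTo f W O)
    (hj : ∀ x ∈ U, IsLocalDiffeomorphAt I I' ∞ j x) (hn : MapsTo j U W) (h : U ⊆ O)
    (e : ∀ x ∈ U, f ∘ j =ᶠ[𝓝 x] id) : (c.pull hf hm).pull hj hn = c.res h := by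
  obtain ⟨a⟩ := c
  exact Quot.sound ((pull_inv a.d hj (fun _ hx => hf _ (hn hx)) e).symm.eqv ((a.ok.pull hf hm).pull hj hn))

theorem sub_of (h : Subsingleton (Cls I' W)) (hf : ∀ y ∈ W, IsLocalDiffeomorphAt I' I ∞ f y) (hm : MapsTo f W O)
    (hj : ∀ x ∈ O, IsLocalDiffeomorphAt I I' ∞ j x) (hn : MapsTo j O W) (e : ∀ x ∈ O, f ∘ j =ᶠ[𝓝 x] id) :
    Subsingleton (Cls I O) :=
  ⟨fun c c' => by
    rw [← res_self c subset_rfl, ← res_self c' subset_rfl, ← pull_back c hf hm hj hn _ e,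
      ← pull_back c' hf hm hj hn _ e, h.elim (c.pull hf hm)]⟩

variable [T2Space M] [SigmaCompactSpace M] [I.Boundaryless]

/-- two classes that agree on the overlap glue -/
theorem cls_glue [Nonempty M] (hU : IsOpen U) (hV : IsOpen V) (hc : U ∪ V = univ) (c : Cls I U) (c' : Cls I V)
    (e : c.res (inter_subset_left (t := V)) = c'.res inter_subset_right) :
    ∃ s : Cls I (univ : Set M), s.res (subset_univ U) = c ∧ s.res (subset_univ V) = c' := by
  obtain ⟨a⟩ := c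
  obtain ⟨b⟩ := c'
  obtain ⟨g, g1, g2, g3⟩ := exists_glue_eqv hU hV (hc ▸ univ_nonempty) a.ok b.ok ((mk_eq_iff (hU.inter hV)).1 e)
  rw [hc] at g1
  exact ⟨g1.cls, (cls_eq_mk hU (g1.mono (subset_univ _))).2 (g2.symm a.ok (g1.mono (subset_univ _))),
    (cls_eq_mk hV (g1.mono (subset_univ _))).2 (g3.symm b.ok (g1.mono (subset_univ _)))⟩

/-- classes on a finite cylinder extend -/
theorem cyl_surj {J : Set ℝ} (hJ : IsOpen J) (hc : OrdConnected J) (hn : J.Nonempty)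
    (c : Cls (I.prod 𝓘(ℝ, ℝ)) (Prod.snd ⁻¹' J : Set (M × ℝ))) :
    ∃ s : Cls (I.prod 𝓘(ℝ, ℝ)) (univ : Set (M × ℝ)), s.res (subset_univ _) = c := by
  obtain ⟨a⟩ := c
  obtain ⟨b, h1, h2⟩ := exists_ext_cyl isOpen_univ hJ hc hn (a.ok.mono fun _ hx => hx.2)
  exact ⟨Quot.mk _ ⟨_, _, b, h1.mono fun _ _ => ⟨trivial, trivial⟩⟩,
    (Quot.sound (h2.mono fun _ hx => ⟨trivial, hx⟩)).symm⟩

end gen

theorem sigT {V : Type} [NormedAddCommGroup V] [NormedSpace ℝ V] [FiniteDimensional ℝ V] (X : TP V) :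
    SigmaCompactSpace X.P.M :=
  have := Manifold.locallyCompact_of_finiteDimensional (M := X.P.M) X.P.I
  inferInstance

section tiso

variable {V V' : Type} [NormedAddCommGroup V] [NormedSpace ℝ V] [FiniteDimensional ℝ V]
  [NormedAddCommGroup V'] [NormedSpace ℝ V'] [FiniteDimensional ℝ V'] {X : TP V} {X' : TP V'} {J J' : Set ℝ}

theorem ev_inv (k : TIso X X' J) {x : X'.P.M} (hx : X'.τ x ∈ J) : k ∘ k.symm =ᶠ[𝓝 x] id :=
  eventually_of_mem (k.φ.open_target.mem_nhds (k.mem_tgt hx)) fun _ hy => k.φ.right_inv hy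

theorem maps_of (k : TIso X X' J) (h : J' ⊆ J) : MapsTo k (X.τ ⁻¹' J') (X'.τ ⁻¹' J') := fun x hx =>
  show X'.τ (k x) ∈ J' from (k.tm x (h hx)).symm ▸ hx

theorem sub_tiso (k : TIso X X' J) (h : J' ⊆ J) (s : Subsingleton (Cls X.P.I (X.τ ⁻¹' J'))) :
    Subsingleton (Cls X'.P.I (X'.τ ⁻¹' J')) :=
  sub_of s (fun _ hy => k.ld (h hy)) (maps_of k h) (fun _ hx => k.symm.ld (h hx)) (maps_of k.symm h)
    fun _ hx => ev_inv k (h hx)

theorem back_tiso (k : TIso X X' J) {s : Cls X.P.I (univ : Set X.P.M)} {d : Cls X'.P.I (univ : Set X'.P.M)}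
    (e : d.res (subset_univ (X'.τ ⁻¹' J)) = s.pull (f := k.symm) (fun _ hx => k.symm.ld hx) (mapsTo_univ _ _)) :
    d.pull (f := k) (W := X.τ ⁻¹' J) (fun _ hy => k.ld hy) (mapsTo_univ _ _) = s.res (subset_univ _) :=
  (res_pull d _ _ (maps_of k subset_rfl)).symm.trans ((congrArg _ e).trans
    (pull_back s _ _ _ _ _ fun _ hx => ev_inv k.symm hx))

/-- **classes extend over a product end** -/
theorem ext_end {B : O3} (k : TIso B.cyl X J) (hJ : IsOpen J) (hJ' : IsOpen J') (hc : OrdConnected (J' ∩ J))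
    (hn : (J' ∩ J).Nonempty) (hu : J' ∪ J = univ) (c : Cls X.P.I (X.τ ⁻¹' J')) :
    ∃ s : Cls X.P.I (univ : Set X.P.M), s.res (subset_univ _) = c := by
  have := sigT X
  have hf := fun y (hy : y ∈ B.cyl.τ ⁻¹' (J' ∩ J)) => k.ld hy.2
  have hm : MapsTo k (B.cyl.τ ⁻¹' (J' ∩ J)) (X.τ ⁻¹' J') := fun _ hy => (maps_of k inter_subset_right hy).1
  obtain ⟨s, e⟩ : ∃ s : B.L, s.res (subset_univ _) = c.pull hf hm := cyl_surj (hJ'.inter hJ) hc hn _
  refine (cls_glue (hJ'.preimage X.cont) (hJ.preimage X.cont) (by rw [← preimage_union, hu, preimage_univ]) c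
    (s.pull (fun _ hx => k.symm.ld hx) (mapsTo_univ _ _)) ?_).imp fun _ h => h.1
  refine (pull_back c hf hm (fun _ hx => k.symm.ld hx.2) (maps_of k.symm inter_subset_right) _
    fun _ hx => ev_inv k hx.2).symm.trans ?_
  rw [← e, res_pull, pull_res]
  rfl

end tiso

/-- **NV-GL** -/
theorem glStmt : Nv5.GlStmt := fun B W₁ W₂ W b a ko ki g => by
  have lt := g.lt
  have hb := g.hb
  have ha := g.ha
  refine ⟨fun d => ?_, fun h d₁ d₂ => ?_⟩
  · obtain ⟨d₁, e₁⟩ := ext_end (J' := {t | t + g.δ₁ < g.β}) ko isOpen_Ioi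
      (isOpen_lt (by fun_prop) continuous_const)
      (OrdConnected.inter ⟨fun _ _ _ h _ k => (add_le_add_left k.2 _).trans_lt h⟩ ordConnected_Ioi)
      ⟨(g.α + g.β) / 2 - g.δ₁, by simp only [mem_ofPred_eq]; linarith, by simp only [mem_Ioi]; linarith⟩
      (eq_univ_of_forall fun t => (lt_or_ge b t).elim .inr fun k => .inl (by simp only [mem_ofPred_eq]; linarith))
      (d.pull (f := g.fl) (fun _ hy => g.l.ld hy) (mapsTo_univ _ _))
    obtain ⟨d₂, e₂⟩ := ext_end (J' := {t | g.α < t + g.δ₂}) ki isOpen_Iio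
      (isOpen_lt continuous_const (by fun_prop))
      (OrdConnected.inter ⟨fun _ h _ _ _ k => h.trans_le (add_le_add_left k.1 _)⟩ ordConnected_Iio)
      ⟨(g.α + g.β) / 2 - g.δ₂, by simp only [mem_ofPred_eq]; linarith, by simp only [mem_Iio]; linarith⟩
      (eq_univ_of_forall fun t => (lt_or_ge t a).elim .inr fun k => .inl (by simp only [mem_ofPred_eq]; linarith))
      (d.pull (f := g.fr) (fun _ hy => g.r.ld hy) (mapsTo_univ _ _))
    exact ⟨d₁, d₂, ⟨_, e₁.symm⟩, _, e₂.symm⟩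
  · have := sigT W.X
    have s0 : Subsingleton (Cls B.cyl.P.I (B.cyl.τ ⁻¹' {t | t + g.δ₁ ∈ Iio g.β ∩ Ioi g.α})) := ⟨fun c c' => by
      have k := cyl_surj (I := B.Y.I) (M := B.Y.M) (J := {t | t + g.δ₁ ∈ Iio g.β ∩ Ioi g.α})
        ((isOpen_Iio.inter isOpen_Ioi).preimage (by fun_prop))
        ((ordConnected_Iio.inter ordConnected_Ioi).preimage_mono fun _ _ k => add_le_add_left k _)
        ⟨(g.α + g.β) / 2 - g.δ₁, by simp only [mem_Iio]; linarith, by simp only [mem_Ioi]; linarith⟩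
      obtain ⟨s, rfl⟩ := k c
      obtain ⟨s', rfl⟩ := k c'
      exact congrArg _ (h.elim s s')⟩
    have s1 := sub_tiso ko (fun t ht => show b < t by linarith [mem_Ioi.1 ht.2]) s0
    have s2 := sub_tiso (J' := Iio g.β ∩ Ioi g.α) g.l inter_subset_left s1
    obtain ⟨d, e₁, e₂⟩ := cls_glue (isOpen_Iio.preimage W.X.cont) (isOpen_Ioi.preimage W.X.cont)
      (by rw [← preimage_union, Iio_union_Ioi_of_lt lt, preimage_univ])
      (d₁.pull (f := g.l.symm) (fun _ hx => g.l.symm.ld hx) (mapsTo_univ _ _))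
      (d₂.pull (f := g.r.symm) (fun _ hx => g.r.symm.ld hx) (mapsTo_univ _ _)) (s2.elim _ _)
    refine ⟨d, ⟨fun _ hy => g.l.ld hy, ?_⟩, fun _ hy => g.r.ld hy, ?_⟩
    · exact back_tiso g.l e₁
    · exact back_tiso g.r e₂

end Crest.Agent.X212.Nvg56
end
end

-- ▼ part X212/Nvg56/Cn

/-!
# X212 / Nvg56, part Cn (helper56): curvature forms of classes

* `exists_cur`, `cur_cl`, `cur_add`, `cur_pb`, `cur_dif`, `exists_fix`;
* `cnStmt : Nv5.CnStmt`.
-/

set_option autoImplicit false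
set_option linter.unusedSectionVars false

open Set Filter Topology Function
open scoped ContDiff Manifold
open Crest.Agent.R208 Crest.Agent.R208.F
open Crest.Agent.X212.Bor5.T Crest.Agent.X212.Lab56 Crest.Agent.X212.Rfl19
open Crest.Agent.X212.Dr59 hiding Ex
open Crest.Agent.X212.Line51 (Ln)
open Crest.Agent.X212.Cyl58 (TP TIso)

noncomputable section

namespace Crest.Agent.X212.Nvg56

section gen

variable {E : Type} [NormedAddCommGroup E] [NormedSpace ℝ E] [FiniteDimensional ℝ E]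
  {H : Type} [TopologicalSpace H] {I : ModelWithCorners ℝ E H} [I.Boundaryless]
  {M : Type} [TopologicalSpace M] [ChartedSpace H M] [IsManifold I ∞ M]
  {E' : Type} [NormedAddCommGroup E'] [NormedSpace ℝ E'] [FiniteDimensional ℝ E']
  {H' : Type} [TopologicalSpace H'] {I' : ModelWithCorners ℝ E' H'} [I'.Boundaryless]
  {N : Type} [TopologicalSpace N] [ChartedSpace H' N] [IsManifold I' ∞ N]
  {U V : Set M} {W : Set N} {f : N → M} {d : Cls I (univ : Set M)} {s : Cls I' (univ : Set N)}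
  {a b c : M → Ext E} {e : N → Ext E'}

theorem exists_cur (d : Cls I (univ : Set M)) : ∃ c, Cur d c := by
  obtain ⟨D⟩ := d
  exact ⟨_, D, rfl, _, D.ok.det.on, rfl⟩

theorem cur_cl (h : Cur d c) : Cl I 2 univ c := by
  obtain ⟨_, -, _, k, rfl⟩ := h
  exact k.cl_F isOpen_univ

theorem cur_add (h : Cur d c) (hb : Sm I univ b) (hd : Dg 1 univ b) : Cur d (c + dM I b) := by
  obtain ⟨D, e, _, k, rfl⟩ := h
  exact ⟨D, e, _, k.shift hb hd, funext fun _ => (k.F_shift isOpen_univ hb trivial).symm⟩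

theorem cur_dif (h : Pb f univ d s) (k : Cur d c) : Cur s (pm I' I f c) := by
  obtain ⟨D, rfl, _, k, rfl⟩ := k
  have m : Mp I' I univ univ f := ⟨fun y hy => (h.1 y hy).contMDiffAt, mapsTo_univ _ _⟩
  exact ⟨⟨_, _, _, D.ok.pull h.1 (mapsTo_univ _ _)⟩, h.2.trans (res_self _ _), _, k.pull m,
    funext fun _ => (k.F_pull isOpen_univ isOpen_univ m trivial).symm⟩

theorem cur_pb [T2Space N] [SigmaCompactSpace N] (hW : IsOpen W) (h : Pb f W d s) (k : Cur s e) (k' : Cur d c) :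
    Dr59.Ex I' W (pm I' I f c - e) := by
  obtain ⟨D, rfl, _, k, rfl⟩ := k
  obtain ⟨D', rfl, _, k', rfl⟩ := k'
  have m : Mp I' I W univ f := ⟨fun y hy => (h.1 y hy).contMDiffAt, mapsTo_univ _ _⟩
  obtain ⟨u, i⟩ := (mk_eq_iff hW).1 h.2.symm
  exact ((i.dm (D.ok.mono (subset_univ _)) (D'.ok.pull h.1 (mapsTo_univ _ _))).ex_F hW (k.mono (subset_univ _))
    (k'.pull m)).congr fun _ hy => congrArg (· - _) (k'.F_pull isOpen_univ hW m hy).symm

/-- a global primitive that is right off `V` and zero off `U` -/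
theorem exists_fix [T2Space M] [SigmaCompactSpace M] {k : ℕ} (hU : IsOpen U) (hV : IsOpen V) (hc : U ∪ V = univ)
    (h : Dr59.Ex I U a) (hd : Dg (k + 1) U a) : ∃ b, Sm I univ b ∧ Dg k univ b ∧
      (∀ x, x ∉ V → dM I b x = a x) ∧ ∀ x, x ∉ U → dM I b x = 0 := by
  obtain ⟨g, h1, h2, h3⟩ := h.deg hd
  obtain ⟨χ, q⟩ := exists_cut (I := I) hU hV
  have m := fun x => (hc.ge (mem_univ x) : x ∈ U ∪ V)
  have z : Cz I univ U χ := ⟨fun x _ => q.sm x (m x), fun x _ hx => q.z x ((m x).resolve_left hx) hx⟩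
  have e := fun x => z.d_smul h1 (fun x _ => h3 x) (mem_univ x)
  exact ⟨_, z.sm_smul h1, z.dg_smul h2, fun x hx => (e x).trans (cut_eq_self (q.o x ((m x).resolve_right hx) hx)),
    fun x hx => (e x).trans (cut_eq_zero (z.z x trivial hx))⟩

end gen

section tiso

variable {V V' : Type} [NormedAddCommGroup V] [NormedSpace ℝ V] [FiniteDimensional ℝ V]
  [NormedAddCommGroup V'] [NormedSpace ℝ V'] [FiniteDimensional ℝ V'] {X : TP V} {X' : TP V'} {J J' : Set ℝ}

theorem img (k : TIso X X' J) (h : J' ⊆ J) : k.φ '' (X.τ ⁻¹' J') = X'.τ ⁻¹' J' :=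
  (maps_of k h).image_subset.antisymm fun _ hx => ⟨_, maps_of k.symm h hx, k.apply_symm (h hx)⟩

theorem hz_end {B : Q3} (k : TIso B.cyl X J) (hJ : IsOpen J) (hc : OrdConnected J) : HZ X.P.I 2 (X.τ ⁻¹' J) := by
  rw [← img k subset_rfl, hz_pd k.φ (hJ.preimage B.cyl.cont) k.src.ge]
  have := B.h2.prod_convex isOpen_univ hJ hc.convex
  rwa [univ_prod] at this

end tiso

/-- **NV-CN** -/
theorem cnStmt : Nv5.CnStmt where
  cl _ _ _ := cur_cl
  pb W _ _ _ _ _ _ _ := have := sigT W.X; cur_pb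
  dif _ _ _ _ _ _ := cur_dif
  nf W Z B β β₁ β₂ b x l k := fun ⟨s, hs⟩ h1 h2 h3 h4 D d c₀ p q => by
    have := sigT W.X
    have := sigT Z.X
    obtain ⟨c, hc⟩ := exists_cur D
    have o := (isOpen_Iio (a := β₁)).preimage W.X.cont
    have sb : Iio β₁ ⊆ Iio β := Iio_subset_Iio h2
    have u : ∀ {y z : ℝ}, z < y → Z.X.τ ⁻¹' Iio y ∪ Z.X.τ ⁻¹' Ioi z = univ := fun h => by
      rw [← preimage_union, Iio_union_Ioi_of_lt h, preimage_univ]
    obtain ⟨g, g1, g2, g3, g4⟩ := exists_fix (k := 1) (a := psh l.φ c₀ - c) (isOpen_Iio.preimage Z.X.cont)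
      (isOpen_Ioi.preimage Z.X.cont) (u h1)
      (img l sb ▸ ex_pd l.φ o (fun _ hy => l.mem_src (sb hy)) ((cur_pb o p q hc).symm.congr fun y hy => by
        rw [pm_sub, Pi.sub_apply, pm_psh _ (l.mem_src (sb hy)), Pi.sub_apply]))
      (Dg.sub (((cur_cl q).dg.pm (mapsTo_univ _ _)).congr fun _ hy => indicator_of_mem (l.mem_tgt (sb hy)) _)
        ((cur_cl hc).dg.mono (subset_univ _)))
    have n := (cur_cl hc).neg.mono (subset_univ (Z.X.τ ⁻¹' Ioi b))
    obtain ⟨g', k1, k2, k3, k4⟩ := exists_fix (isOpen_Ioi.preimage Z.X.cont) (isOpen_Iio.preimage Z.X.cont)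
      (union_comm _ _ ▸ u h4) (hz_end k isOpen_Ioi ordConnected_Ioi _ n) n.dg
    have r := cur_add (cur_add hc g1 g2) k1 k2
    have z : ∀ y, y ∉ Z.X.τ ⁻¹' Icc s x → (c + dM _ g + dM _ g') y = 0 := fun y hy => by
      have : x < Z.X.τ y := not_le.1 fun h => hy ⟨hs y, h⟩
      simp only [Pi.add_apply]
      rw [g4 y ((h3.trans (h4.trans this).le).not_gt), k3 y this.le.not_gt]
      simp
    refine ⟨_, r, ⟨cur_cl r, HasCompactSupport.intro (Z.X.prop s x) z, (closure_minimal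
      (support_subset_iff'.2 z) (Z.X.prop s x).isClosed).trans fun _ hy => hy.2⟩, fun y hy => ?_⟩
    have e : Z.X.τ (l y) < β₂ := (l.tm y (sb (hy.trans h1))).trans_lt hy
    refine (pm_congr_right (b := psh l.φ c₀) ?_).trans (pm_psh _ (l.mem_src (sb (hy.trans h1))) _)
    simp only [Pi.add_apply]
    rw [g3 _ e.not_gt, k4 _ (e.trans (h1.trans_le h3)).not_gt]
    simp

end Crest.Agent.X212.Nvg56
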